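import Vale.Agent.P312.Main

namespace Vale.Agent.Results.P312.A_full

open Vale.Agent.P312

/-- One-tape time `t` is contained in space `t^(2/5) (log t)^(3/5)`, for every `t(n) ≥ n`;
hence in space `t^e` for every `e > 2/5`, and in space `t^(1/2 - δ)` for a fixed `δ > 0`. -/
theorem result :
    (∃ δ : ℝ, 0 < δ ∧ ∀ (Sym : Type) [Finite Sym] (t : ℕ → ℕ), (∀ n, n ≤ t n) →
      TIME₁ Sym t ⊆ SPACE Sym (fun n => (t n : ℝ) ^ (1 / 2 - δ))) ∧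
    (∀ e : ℝ, 2 / 5 < e → ∀ (Sym : Type) [Finite Sym] (t : ℕ → ℕ), (∀ n, n ≤ t n) →
      TIME₁ Sym t ⊆ SPACE Sym (fun n => (t n : ℝ) ^ e)) ∧
    (∀ (Sym : Type) [Finite Sym] (t : ℕ → ℕ), (∀ n, n ≤ t n) →
      TIME₁ Sym t ⊆
        SPACE Sym (fun n => (t n : ℝ) ^ (2 / 5 : ℝ) * Real.log (t n) ^ (3 / 5 : ℝ))) :=
  ⟨⟨1 / 20, by norm_num, fun _ _ t ht => main_pow (by norm_num) t ht⟩,
    fun _ he _ _ t ht => main_pow he t ht, fun _ _ t ht => main_log t ht⟩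

end Vale.Agent.Results.P312.A_full
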